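import Vale.Agent.P181.BL.DefsJ
import Vale.Agent.P181.TL.H850.JoinP
import Vale.Agent.P181.TL.H410.T9E
import Vale.Agent.P181.PL.Basic
import Vale.Agent.P181.H530.Pad

set_option autoImplicit false

/-!
# P181, BL [B12]: the union `LinAll`

If `b` is below a polylogarithmic multiple of `a` and `w` is above `a ^ 2` over a power of the
logarithm, then either the rows below row polylog have many boxes (`TailS`) or some gap
`λ_(i+1) - λ_(i+2)` with `1 ≤ i ≤ polylog` is at least `a ^ 2` over a power of the logarithm: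
`TwoLongPA` for `i = 1`, `BlkP` for `i ≥ 2`.
-/

open Finset

namespace Vale.Agent.P181.BL.H640

open Vale.Agent.P181.H280 (plethMult)
open Vale.Agent.P181.T4 (ex)
open Vale.Agent.P181.PL (dn exlt exge exanti dn_le ex_le_dn dn_anti)
open Vale.Agent.P181.TL (dn2)

/-- Small gaps everywhere: few boxes below row one. -/
lemma small_gaps {n : ℕ} {lam : Fin n → ℕ} (h : Antitone lam) {N : ℕ} {G : ℝ}
    (hg : ∀ i, 1 ≤ i → i ≤ N → (ex lam i : ℝ) - ex lam (i + 1) ≤ G) :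
    (dn lam 1 : ℝ) ≤ (N + 1) * dn lam (N + 1) + N ^ 2 * G := by
  have h1 : ∀ k, k ≤ N → (ex lam 1 : ℝ) ≤ ex lam (1 + k) + k * G := by
    intro k
    induction k with
    | zero => intro _; simp
    | succ k ih =>
      intro hk
      have h2 := ih (by omega)
      have h3 := hg (1 + k) (by omega) (by omega)
      push_cast
      have h4 : 1 + (k + 1) = 1 + k + 1 := by ring
      rw [h4]
      linarith
  have h2 := h1 N le_rfl
  have h3 : ((dn lam 1 : ℕ) : ℝ) ≤ dn lam (1 + N) + N * ex lam 1 := by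
    exact_mod_cast dn_le h 1 N
  have h4 : (ex lam (1 + N) : ℝ) ≤ dn lam (1 + N) := by exact_mod_cast ex_le_dn lam (1 + N)
  have h5 : (0 : ℝ) ≤ N := Nat.cast_nonneg N
  rw [add_comm N 1]
  calc (dn lam 1 : ℝ) ≤ dn lam (1 + N) + N * ex lam 1 := h3
    _ ≤ dn lam (1 + N) + N * (dn lam (1 + N) + N * G) := by
        gcongr
        linarith
    _ = (N + 1) * dn lam (1 + N) + N ^ 2 * G := by ring

/-- Adding zero rows. -/
lemma dn_pad {n k : ℕ} (lam : Fin n → ℕ) (j : ℕ) : dn (H530.lam0 n k lam) j = dn lam j := by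
  unfold dn
  rw [Fin.sum_univ_add]
  have h1 : ∑ i : Fin k, (if j ≤ ((Fin.natAdd n i : Fin (n + k)) : ℕ) then
      H530.lam0 n k lam (Fin.natAdd n i) else 0) = 0 := by
    apply Finset.sum_eq_zero
    intro i _
    rw [H530.lam0_nat]
    simp
  rw [h1, add_zero]
  apply Finset.sum_congr rfl
  intro i _
  rw [H530.lam0_cast, Fin.val_castAdd]

/-- The boxes in the rows from `N` on, as a real sum over a filter. -/
lemma dn_le_sum {n : ℕ} (lam : Fin n → ℕ) {N : ℕ} {P : ℝ} (hN : P ≤ N) :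
    (dn lam N : ℝ) ≤ ∑ i ∈ univ.filter (fun i : Fin n => P ≤ ((i : ℕ) : ℝ)), (lam i : ℝ) := by
  unfold dn
  push_cast
  rw [Finset.sum_filter]
  apply Finset.sum_le_sum
  intro i _
  by_cases h : N ≤ (i : ℕ)
  · have h2 : P ≤ ((i : ℕ) : ℝ) := hN.trans (by exact_mod_cast h)
    rw [if_pos h, if_pos h2]
  · rw [if_neg h]
    split_ifs
    · exact Nat.cast_nonneg _
    · exact le_rfl

/-- The numbers: all gaps small is impossible. -/
lemma numbers {C1 CP L a b w D N G P : ℝ} {c1 cT cP : ℕ} (hC1 : 0 < C1)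
    (hL : 1 ≤ L) (ha : 0 < a) (hP : P = L ^ cT)
    (hb : b ≤ CP * a * L ^ cP) (hN : N ≤ P + 1) (hN0 : 0 ≤ N) (hD : D ≤ b * P) (hD0 : 0 ≤ D)
    (hG : 8 * C1 * L ^ (c1 + 2 * cT) * G ≤ a ^ 2) (hG0 : 0 ≤ G)
    (hlarge : 12 * C1 * CP * L ^ (c1 + 2 * cT + cP) ≤ a)
    (hw : w ≤ (N + 1) * D + N ^ 2 * G) : C1 * L ^ c1 * w ≤ a ^ 2 := by
  have hP1 : 1 ≤ P := by rw [hP]; exact one_le_pow₀ hL
  have hN2 : N ≤ 2 * P := by linarith
  have hN3 : N + 1 ≤ 3 * P := by linarith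
  have hLc1 : 0 ≤ L ^ c1 := by positivity
  have e1 : (N + 1) * D ≤ 3 * P * (b * P) := by gcongr
  have e2 : N ^ 2 * G ≤ (2 * P) ^ 2 * G := by gcongr
  have e3 : 3 * P * (b * P) ≤ 3 * P * (CP * a * L ^ cP * P) := by gcongr
  have e4 : C1 * L ^ c1 * (3 * P * (CP * a * L ^ cP * P)) =
      3 * C1 * CP * L ^ (c1 + 2 * cT + cP) * a := by
    rw [hP]
    ring
  have e5 : C1 * L ^ c1 * ((2 * P) ^ 2 * G) = 4 * C1 * L ^ (c1 + 2 * cT) * G := by
    rw [hP]
    ring
  have e6 : 12 * C1 * CP * L ^ (c1 + 2 * cT + cP) * a ≤ a * a := by gcongr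
  calc C1 * L ^ c1 * w ≤ C1 * L ^ c1 * (3 * P * (CP * a * L ^ cP * P) + (2 * P) ^ 2 * G) := by
        gcongr
        linarith
    _ = 3 * C1 * CP * L ^ (c1 + 2 * cT + cP) * a + 4 * C1 * L ^ (c1 + 2 * cT) * G := by
        rw [mul_add, e4, e5]
    _ ≤ a ^ 2 := by nlinarith

/-- **(B12)** -/
theorem linAll_of (hB : BlkP) (hT : TL.TwoLongPA) (hS : TailS) (hP : PL.PolyS)
    (hL : H467.NT.LinS) : LinAll := by
  obtain ⟨CP, cP, hCP, hP⟩ := hP
  obtain ⟨C1, c1, hC1, hL⟩ := hL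
  obtain ⟨cT, hS⟩ := hS
  obtain ⟨C₀, hC₀⟩ : ∃ C₀ : ℝ, C₀ = 8 * C1 + CP + 1 := ⟨_, rfl⟩
  obtain ⟨c₀, hc₀⟩ : ∃ c₀ : ℕ, c₀ = c1 + 2 * cT + cP := ⟨_, rfl⟩
  have hC₀p : 0 < C₀ := by rw [hC₀]; positivity
  obtain ⟨A, hA⟩ := hB C₀ c₀ hC₀p
  obtain ⟨C2, c2, hC2, hc2, hT⟩ := hT C₀ c₀ hC₀p (Nat.cast_nonneg _)
  obtain ⟨a₀, ha₀⟩ := TL.H410.ev_log (12 * C1 * CP) (c1 + 2 * cT + cP)
  obtain ⟨M, hM⟩ : ∃ M : ℕ, M = max A a₀ := ⟨_, rfl⟩
  have hMA : A ≤ M := by rw [hM]; exact le_max_left _ _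
  have hMa : a₀ ≤ M := by rw [hM]; exact le_max_right _ _
  refine ⟨C1 + C2 + 200 + CP * (1 + M) ^ cP, c1 + ⌈c2⌉₊, by positivity, ?_⟩
  intro a b hab n lam hw hor
  obtain ⟨C, hC⟩ : ∃ C : ℝ, C = C1 + C2 + 200 + CP * (1 + M) ^ cP := ⟨_, rfl⟩
  rw [← hC] at hab hor
  have hM0 : (0 : ℝ) ≤ CP * (1 + M) ^ cP := by positivity
  have hCa : C1 ≤ C := by rw [hC]; linarith
  have hCb : C2 ≤ C := by rw [hC]; linarith
  have hCc : 200 ≤ C := by rw [hC]; linarith
  have hCd : CP * (1 + M) ^ cP ≤ C := by rw [hC]; linarith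
  obtain ⟨L, hLe⟩ : ∃ L : ℝ, L = 1 + Real.log a := ⟨_, rfl⟩
  have hL1 : 1 ≤ L := by
    rw [hLe]
    linarith [Real.log_natCast_nonneg a]
  have ha0 : (0 : ℝ) ≤ a := Nat.cast_nonneg a
  have hb0 : (0 : ℝ) ≤ b := Nat.cast_nonneg b
  -- the polylogarithmic theorem
  by_cases hpoly : CP * a * (1 + Real.log a) ^ cP ≤ b
  · exact hP a b hpoly n lam
  -- `a` is large
  have haM : M < a := by
    by_contra hcon
    push Not at hcon
    apply hpoly
    have h1 : (a : ℝ) ≤ M := by exact_mod_cast hcon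
    have h2 : Real.log a ≤ M := (Real.log_le_self ha0).trans h1
    calc CP * a * (1 + Real.log a) ^ cP ≤ CP * a * (1 + M) ^ cP := by
          have := Real.log_natCast_nonneg a
          gcongr
      _ = CP * (1 + M) ^ cP * a := by ring
      _ ≤ C * a := by gcongr
      _ ≤ b := hab
  have ha1 : 1 ≤ a := by omega
  have haR : (0 : ℝ) < a := by exact_mod_cast ha1
  have hab200 : 200 * a ≤ b := by
    have : (200 : ℝ) * a ≤ b := le_trans (by gcongr) hab
    exact_mod_cast this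
  by_cases hlin : C1 * (1 + Real.log a) ^ c1 * (dn lam 1 : ℝ) ≤ (a : ℝ) ^ 2
  · exact hL a b (by omega) n lam hlin
  rw [← hLe] at hlin hor hpoly
  by_cases hz : plethMult a b n lam = 0
  · rw [hz]
    exact Nat.zero_le _
  have hwpos : 0 < dn lam 1 := by
    by_contra hcon
    apply hlin
    rw [show dn lam 1 = 0 by omega, Nat.cast_zero, mul_zero]
    positivity
  obtain ⟨hn, ha2⟩ := TL.H850.shape hz hwpos
  obtain ⟨hanti, hsum, -⟩ := H530.zero_stmt a b n lam hz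
  -- the hypothesis in the window
  have hc1 : L ^ c1 ≤ L ^ (c1 + ⌈c2⌉₊) := pow_le_pow_right₀ hL1 (Nat.le_add_right _ _)
  have hcc : L ^ ⌈c2⌉₊ ≤ L ^ (c1 + ⌈c2⌉₊) := pow_le_pow_right₀ hL1 (Nat.le_add_left _ _)
  rcases hor with hor | hor | hor
  · exfalso
    apply hlin
    refine le_trans ?_ hor
    gcongr
  swap
  · obtain ⟨k, rfl⟩ := Nat.exists_eq_add_of_le' hn
    rw [TL.H850.dn_two] at hor
    exact TL.H850.few lam ha2 hor
  -- heavy tail
  obtain ⟨P, hPe⟩ : ∃ P : ℝ, P = L ^ cT := ⟨_, rfl⟩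
  have hP1 : 1 ≤ P := by rw [hPe]; exact one_le_pow₀ hL1
  obtain ⟨N, hN⟩ : ∃ N : ℕ, N = ⌈P⌉₊ := ⟨_, rfl⟩
  have hN1 : 1 ≤ N := by
    rw [hN]
    exact Nat.one_le_ceil_iff.2 (by linarith)
  have hPN : P ≤ N := by rw [hN]; exact Nat.le_ceil P
  have hNP : (N : ℝ) ≤ P + 1 := by rw [hN]; exact (Nat.ceil_lt_add_one (by linarith)).le
  by_cases htail : (b : ℝ) * (1 + Real.log a) ^ cT ≤
      ∑ i ∈ univ.filter (fun i : Fin n => (1 + Real.log a) ^ cT ≤ ((i : ℕ) : ℝ)), (lam i : ℝ)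
  · exact hS a b n lam (by omega) htail
  rw [← hLe, ← hPe] at htail
  push Not at htail hpoly hlin
  have hDN : (dn lam (N + 1) : ℝ) ≤ b * P := by
    refine le_trans (dn_le_sum lam ?_) htail.le
    push_cast
    linarith
  -- add zero rows
  rw [← H530.pad_stmt a b n (N + 3) lam, ← H530.pad_stmt b a n (N + 3) lam]
  have hz' : plethMult a b (n + (N + 3)) (H530.lam0 n (N + 3) lam) ≠ 0 := by
    have := H530.pad_stmt a b n (N + 3) lam
    intro h
    exact hz (this.symm.trans h)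
  change plethMult a b (n + (N + 3)) (H530.lam0 n (N + 3) lam) ≤
    plethMult b a (n + (N + 3)) (H530.lam0 n (N + 3) lam)
  have hd1 := dn_pad (k := N + 3) lam 1
  have hd2 := dn_pad (k := N + 3) lam 2
  have hdN := dn_pad (k := N + 3) lam (N + 1)
  rw [← hd1] at hw hlin
  rw [← hd2] at hor
  rw [← hdN] at hDN
  have hnN : N + 3 ≤ n + (N + 3) := Nat.le_add_left _ _
  clear hd1 hd2 hdN hwpos hn hanti hsum hz htail
  generalize H530.lam0 n (N + 3) lam = mu at *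
  generalize n + (N + 3) = m at *
  clear lam
  obtain ⟨hanti, hsum, -⟩ := H530.zero_stmt a b m mu hz'
  -- a large gap
  obtain ⟨i, hi1, hiN, hgap⟩ : ∃ i, 1 ≤ i ∧ i ≤ N ∧
      (a : ℝ) ^ 2 ≤ C₀ * (1 + Real.log a) ^ c₀ * ((ex mu i : ℝ) - ex mu (i + 1)) := by
    by_contra hcon
    push Not at hcon
    have hQ : 0 < C₀ * L ^ c₀ := by positivity
    have hg : ∀ i, 1 ≤ i → i ≤ N → (ex mu i : ℝ) - ex mu (i + 1) ≤ (a : ℝ) ^ 2 / (C₀ * L ^ c₀) := by
      intro i h1 h2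
      have h3 := (hcon i h1 h2).le
      rw [← hLe] at h3
      rw [le_div_iff₀ hQ, mul_comm]
      exact h3
    have hwle := small_gaps hanti hg
    apply absurd hlin
    push Not
    refine numbers (CP := CP) (cT := cT) (cP := cP) (b := b) (D := dn mu (N + 1)) (N := N)
      (G := (a : ℝ) ^ 2 / (C₀ * L ^ c₀)) (P := P) hC1 hL1 haR hPe ?_ hNP
      (Nat.cast_nonneg _) hDN (Nat.cast_nonneg _) ?_ (by positivity) ?_ hwle
    · exact hpoly.le
    · rw [mul_div_assoc', div_le_iff₀ hQ, mul_comm]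
      have h1 : 8 * C1 ≤ C₀ := by rw [hC₀]; linarith
      have h2 : L ^ (c1 + 2 * cT) ≤ L ^ c₀ := by
        rw [hc₀]
        exact pow_le_pow_right₀ hL1 (Nat.le_add_right _ _)
      gcongr
    · have := ha₀ a (by omega)
      rw [← hLe] at this
      exact this
  have hi2 : i + 2 < m := by omega
  rw [exlt mu (by omega : i < m), exlt mu (by omega : i + 1 < m)] at hgap
  rcases Nat.lt_or_ge 1 i with hi | hi
  · -- a block of `i` rows
    obtain ⟨r, rfl⟩ : ∃ r, i = r + 1 := ⟨i - 1, by omega⟩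
    obtain ⟨k, rfl⟩ : ∃ k, m = k + 1 + r + 2 := ⟨m - (r + 3), by omega⟩
    have e1 : dn mu 1 = ∑ i, SZ.tl mu i := by
      unfold dn
      rw [Fin.sum_univ_succ, if_neg (by simp), zero_add]
      apply Finset.sum_congr rfl
      intro j _
      rw [if_pos (by simp)]
      rfl
    refine hA a b k r mu hanti hsum (by omega) (by omega) ?_ (by omega) ?_ hgap ?_
    · rw [← hLe]
      calc (b : ℝ) ≤ CP * a * L ^ cP := hpoly.le
        _ = CP * L ^ cP * a := by ring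
        _ ≤ C₀ * L ^ c₀ * a := by
          have h1 : CP ≤ C₀ := by rw [hC₀]; linarith
          have h2 : L ^ cP ≤ L ^ c₀ := by
            rw [hc₀]
            exact pow_le_pow_right₀ hL1 (Nat.le_add_left _ _)
          gcongr
    · rw [← hLe]
      have h1 : (r : ℝ) ≤ P := by
        have : ((r + 1 : ℕ) : ℝ) ≤ N := by exact_mod_cast hiN
        push_cast at this
        linarith
      have h2 : P ≤ L ^ c₀ := by
        rw [hPe, hc₀]
        exact pow_le_pow_right₀ hL1 (by omega)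
      have h3 : 1 ≤ C₀ := by rw [hC₀]; linarith
      have h4 : 0 ≤ L ^ c₀ := by positivity
      nlinarith
    · rw [← e1]
      exact hw
  · -- two long rows
    obtain rfl : i = 1 := by omega
    obtain ⟨k, rfl⟩ : ∃ k, m = k + 3 := ⟨m - 3, by omega⟩
    have e2 : dn mu 2 = dn2 (k := k + 1) mu := TL.H850.dn_two (k := k + 1) mu
    have e1 : dn mu 1 = mu 1 + dn2 (k := k + 1) mu := TL.H850.dn_one (k := k + 1) mu
    have e0 : ∑ i, mu i = mu 0 + (mu 1 + dn2 (k := k + 1) mu) := TL.H850.sum_eq (k := k + 1) mu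
    refine hT a b k mu hanti hsum (by omega) ?_ ?_ ?_
    · rw [Real.rpow_natCast]
      exact hgap
    · rw [← hLe, ← e2]
      refine le_trans ?_ hor
      have e6 : L ^ c2 ≤ L ^ (c1 + ⌈c2⌉₊) := by
        refine le_trans ?_ hcc
        rw [← Real.rpow_natCast]
        exact Real.rpow_le_rpow_of_exponent_le hL1 (Nat.le_ceil c2)
      gcongr
    · have h1 : a * (200 * a) ≤ a * b := Nat.mul_le_mul_left _ hab200
      have h2 : a * (200 * a) = 200 * a ^ 2 := by ring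
      omega

end Vale.Agent.P181.BL.H640
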