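import Vale.Agent.P181.BL.H118.BordR
import Vale.Agent.P181.BL.H118.MinR
import Vale.Agent.P181.BL.H368.CutR
import Vale.Agent.P181.BL.H481.LowR
import Vale.Agent.P181.BL.H540.LiftR
import Vale.Agent.P181.BL.H613.BlkP
import Vale.Agent.P181.BL.H640.LinAll
import Vale.Agent.P181.BL.H650.One
import Vale.Agent.P181.BL.H742.HeadR
import Vale.Agent.P181.BL.H742.KeyR
import Vale.Agent.P181.BL.H820.CoreR
import Vale.Agent.P181.TL.H797.FinalP
import Vale.Agent.P181.TS.H798.Fin
import Vale.Agent.P181.PLX.Main
import Vale.Agent.P181.H467.NT.All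

set_option autoImplicit false

/-!
# P181, BL: the closed theorems of the line BL
-/

namespace Vale.Agent.P181.BL.H640

/-- Lower bound, no hypothesis. -/
theorem lowR_closed : LowR :=
  H481.lowR TL.H353.refB (H540.liftR (H650.oneR H118.bordR H118.minR)) H742.keyR H742.headR
    Vale.Agent.P181.SZR2.lowerS Vale.Agent.P181.SZT0.transS

/-- **A gap below a block of long rows**, natural numbers. -/
theorem coreR_closed : CoreR := H820.coreR H368.upR TL.H639.balB lowR_closed

/-- **A gap below a block of long rows**, polylogarithmic form. -/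
theorem blkP_closed : BlkP := H613.blkP coreR_closed

/-- `TailF` for `δ = 1`. -/
theorem tailS_closed : TailS := by
  obtain ⟨c, h⟩ := TS.tailF 1 one_pos
  refine ⟨c, fun a b n lam hab hs => h a b n lam ?_ hs⟩
  have : ((2 * a : ℕ) : ℝ) ≤ b := by exact_mod_cast hab
  push_cast at this
  linarith

/-- **(B12)** without hypotheses. -/
theorem linAll_closed : LinAll :=
  H640.linAll_of blkP_closed TL.H797.twoLongPA_closed tailS_closed PLX.polyS
    H467.NT.linS

end Vale.Agent.P181.BL.H640
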